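import Vale.Agent.P189W88.Defs
import Mathlib.MeasureTheory.Measure.Prod

/-!
# P189: weakly mixing actions, and the restriction of an action to a subgroup
-/

set_option autoImplicit false

open MeasureTheory
open scoped ENNReal

namespace Vale.Agent.N189

open Vale.Agent.P189W88

variable {Γ : Type} [Group Γ] {X : Type} [MeasurableSpace X] {μ : Measure X}

/-- The action is weakly mixing: the diagonal action on `X × X` is ergodic, that is, every
invariant Borel subset of `X × X` has product measure `0` or `1`. -/
def IsWeaklyMixing (α : Action Γ μ) : Prop :=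
  ∀ s : Set (X × X), MeasurableSet s → (∀ g x y, (α.act x g, α.act y g) ∈ s ↔ (x, y) ∈ s) →
    μ.prod μ s = 0 ∨ μ.prod μ s = 1

/-- The set of costs of the weakly mixing essentially free p.m.p. actions of `Γ` on standard
probability spaces. -/
def weakMixingCosts (Γ : Type) [Group Γ] : Set ℝ≥0∞ :=
  {c | ∃ (X : Type) (_ : MeasurableSpace X) (_ : StandardBorelSpace X) (μ : Measure X)
    (_ : IsProbabilityMeasure μ) (α : Action Γ μ), α.Free ∧ IsWeaklyMixing α ∧ Cost μ α.rel = c}

/-- The restriction of the action to the subgroup `H`. -/
def restrict (α : Action Γ μ) (H : Subgroup Γ) : Action H μ where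
  act x h := α.act x h
  act_one := α.act_one
  act_mul x g h := α.act_mul x g h
  preserving h := α.preserving h

end Vale.Agent.N189
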