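import Vale.Agent.P189.H741.Mid

/-!
# P189: generalised Bernoulli shifts are weakly mixing
-/

set_option autoImplicit false

open MeasureTheory Set
open scoped ENNReal symmDiff

namespace Vale.Agent.N189

open Vale.Agent.P189

section Cyl

variable {T B V : Type} [MeasurableSpace B] [MeasurableSpace V]

/-- Measurable sets depending on finitely many positions of the first coordinate. -/
def cylSets (T B V : Type) [MeasurableSpace B] [MeasurableSpace V] : Set (Set ((T → B) × V)) :=
  {C | MeasurableSet C ∧ ∃ F : Finset T,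
    ∀ (x x' : T → B) (v : V), (∀ z ∈ F, x z = x' z) → ((x, v) ∈ C ↔ (x', v) ∈ C)}

theorem cylSets_algebra : IsSetAlgebra (cylSets T B V) := by
  classical
  refine ⟨⟨MeasurableSet.empty, ∅, fun _ _ _ _ => Iff.rfl⟩, ?_, ?_⟩
  · rintro s ⟨hs, F, hF⟩
    exact ⟨hs.compl, F, fun x x' v h => not_congr (hF x x' v h)⟩
  · rintro s t ⟨hs, F, hF⟩ ⟨ht, F', hF'⟩
    refine ⟨hs.union ht, F ∪ F', fun x x' v h => or_congr ?_ ?_⟩
    · exact hF x x' v fun z hz => h z (Finset.mem_union_left _ hz)
    · exact hF' x x' v fun z hz => h z (Finset.mem_union_right _ hz)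

theorem cylSets_generate :
    (inferInstance : MeasurableSpace ((T → B) × V)) =
      MeasurableSpace.generateFrom (cylSets T B V) := by
  refine le_antisymm ?_ (MeasurableSpace.generateFrom_le fun s hs => hs.1)
  have h1 : @Measurable ((T → B) × V) (T → B)
      (MeasurableSpace.generateFrom (cylSets T B V)) _ Prod.fst := by
    refine (@measurable_pi_iff _ _ _ (MeasurableSpace.generateFrom (cylSets T B V)) _ _).2
      fun z => ?_
    intro s hs
    refine MeasurableSpace.measurableSet_generateFrom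
      ⟨((measurable_pi_apply z).comp measurable_fst) hs, {z}, fun x x' v h => ?_⟩
    have := h z (Finset.mem_singleton_self z)
    simp only [mem_preimage, this]
  have h2 : @Measurable ((T → B) × V) V
      (MeasurableSpace.generateFrom (cylSets T B V)) _ Prod.snd := by
    intro s hs
    exact MeasurableSpace.measurableSet_generateFrom
      ⟨measurable_snd hs, ∅, fun _ _ _ _ => Iff.rfl⟩
  have h3 := Measurable.prodMk h1 h2
  intro s hs
  exact h3 hs

theorem exists_cyl (m : Measure ((T → B) × V)) [IsFiniteMeasure m]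
    {A : Set ((T → B) × V)} (hA : MeasurableSet A) {ε : ℝ≥0∞} (hε : 0 < ε) :
    ∃ C ∈ cylSets T B V, m (C ∆ A) < ε :=
  exists_measure_symmDiff_lt_of_generateFrom_isSetRing (cylSets_algebra.isSetRing)
    ⟨{univ}, countable_singleton _, singleton_subset_iff.2 cylSets_algebra.univ_mem, by simp⟩
    cylSets_generate hA hε

/-- Sets depending on disjoint finite sets of positions are independent. -/
theorem indep_of_disjoint (b : Measure B) [IsProbabilityMeasure b] {F F' : Finset T}
    (h : Disjoint F F') {C C' : Set (T → B)} (mC : MeasurableSet C) (mC' : MeasurableSet C')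
    (hC : ∀ x x' : T → B, (∀ z ∈ F, x z = x' z) → (x ∈ C ↔ x' ∈ C))
    (hC' : ∀ x x' : T → B, (∀ z ∈ F', x z = x' z) → (x ∈ C' ↔ x' ∈ C')) :
    Measure.infinitePi (fun _ : T => b) (C ∩ C') =
      Measure.infinitePi (fun _ : T => b) C * Measure.infinitePi (fun _ : T => b) C' := by
  classical
  obtain ⟨b0⟩ : Nonempty B := nonempty_of_isProbabilityMeasure b
  have hi : ProbabilityTheory.iIndepFun (fun (z : T) (x : T → B) => x z)
      (Measure.infinitePi (fun _ : T => b)) :=
    ProbabilityTheory.iIndepFun_infinitePi (P := fun _ : T => b) (X := fun _ y => y)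
      fun _ => measurable_id
  have hj := hi.indepFun_finset F F' h fun z => measurable_pi_apply z
  let ex : (S : Finset T) → (S → B) → T → B := fun S y z => if hz : z ∈ S then y ⟨z, hz⟩ else b0
  have hex : ∀ S, Measurable (ex S) := by
    intro S
    refine measurable_pi_iff.2 fun z => ?_
    by_cases hz : z ∈ S
    · simp only [ex, hz, dif_pos]
      exact measurable_pi_apply _
    · simp only [ex, hz, dif_neg, not_false_iff]
      exact measurable_const
  have key : ∀ (S : Finset T) (D : Set (T → B)),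
      (∀ x x' : T → B, (∀ z ∈ S, x z = x' z) → (x ∈ D ↔ x' ∈ D)) →
      D = (fun (x : T → B) (z : S) => x z) ⁻¹' (ex S ⁻¹' D) := by
    intro S D hD
    ext x
    exact hD x _ fun z hz => by simp only [ex, hz, dif_pos]
  have := (ProbabilityTheory.indepFun_iff_measure_inter_preimage_eq_mul.1 hj)
    (ex F ⁻¹' C) (ex F' ⁻¹' C') (hex F mC) (hex F' mC')
  rwa [← key F C hC, ← key F' C' hC'] at this

end Cyl

/-- Ergodicity of a left action. -/
def Erg (G X : Type) [Group G] [MulAction G X] [MeasurableSpace X] (μ : Measure X) : Prop :=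
  ∀ s : Set X, MeasurableSet s → (∀ (g : G) x, g • x ∈ s ↔ x ∈ s) → μ s = 0 ∨ μ s = 1

/-- The product with every ergodic action is ergodic. -/
def WM (G X : Type) [Group G] [MulAction G X] [MeasurableSpace X] (μ : Measure X) : Prop :=
  ∀ (W : Type) [MeasurableSpace W] (ν : Measure W) [IsProbabilityMeasure ν] [MulAction G W]
    [MeasurableConstSMul G W] [SMulInvariantMeasure G W ν],
    Erg G W ν → Erg G (X × W) (μ.prod ν)

section Prod

variable {G T B V : Type} [Group G] [MeasurableSpace B] [MeasurableSpace V] [MulAction G V]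
  [MeasurableConstSMul G V] [MulAction G (T → B)] [MeasurableConstSMul G (T → B)]

/-- Almost every slice of an invariant set is null or conull. -/
theorem slices_trivial [DecidableEq T] (b : Measure B) [IsProbabilityMeasure b]
    [SMulInvariantMeasure G (T → B) (Measure.infinitePi fun _ : T => b)]
    (τ : G → T → T) (hτ : ∀ (g : G) (x : T → B) z, (g • x) z = x (τ g z))
    (hsep : ∀ F : Finset T, ∃ g, Disjoint F (F.image (τ g)))
    (ν : Measure V) [IsProbabilityMeasure ν] [SMulInvariantMeasure G V ν]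
    {A : Set ((T → B) × V)} (hA : MeasurableSet A) (hinv : ∀ (g : G) y, g • y ∈ A ↔ y ∈ A) :
    ∀ᵐ v ∂ν, Measure.infinitePi (fun _ : T => b) ((fun x => (x, v)) ⁻¹' A) = 0 ∨
      Measure.infinitePi (fun _ : T => b) ((fun x => (x, v)) ⁻¹' Aᶜ) = 0 := by
  set β := Measure.infinitePi (fun _ : T => b) with hβ
  have hmY : MeasurableConstSMul G ((T → B) × V) := M.UpAux.prod_meas
  have hiY : SMulInvariantMeasure G ((T → B) × V) (β.prod ν) := M.UpAux.prod_inv _ _
  let sl : Set ((T → B) × V) → V → ℝ≥0∞ := fun s v => β ((fun x => (x, v)) ⁻¹' s)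
  have hsl : ∀ s, MeasurableSet s → Measurable (sl s) := fun s hs =>
    measurable_measure_prodMk_right hs
  have hint : ∀ s, MeasurableSet s → ∫⁻ v, sl s v ∂ν = (β.prod ν) s := fun s hs =>
    (Measure.prod_apply_symm hs).symm
  have hle : ∀ ε : ℝ≥0∞, 0 < ε → ∫⁻ v, sl A v * sl Aᶜ v ∂ν ≤ 4 * ε := by
    intro ε hε
    obtain ⟨B1, ⟨hB1, F, hF⟩, hBA⟩ := exists_cyl (β.prod ν) hA hε
    obtain ⟨g, hFF⟩ := hsep F
    let B2 : Set ((T → B) × V) := (fun y => g • y) ⁻¹' B1
    have hB2 : MeasurableSet B2 := hB1.preimage (measurable_const_smul g)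
    have hE1 : (β.prod ν) (B1 ∆ A) ≤ ε := hBA.le
    have hE2 : (β.prod ν) (B2 ∆ A) ≤ ε := by
      have h1 : B2 ∆ A = (fun y => g • y) ⁻¹' (B1 ∆ A) := by
        ext y
        simp only [mem_symmDiff, mem_preimage, B2, hinv g]
      rw [h1, measure_preimage_smul]
      exact hE1
    have hpt : ∀ v, sl A v * sl Aᶜ v ≤ 2 * sl (B1 ∆ A) v + 2 * sl (B2 ∆ A) v := by
      intro v
      have hind : β ((fun x => (x, v)) ⁻¹' B1 ∩ (fun x => (x, v)) ⁻¹' B2ᶜ) =
          sl B1 v * sl B2ᶜ v := by
        refine indep_of_disjoint b hFF (hB1.preimage measurable_prodMk_right)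
          (hB2.compl.preimage measurable_prodMk_right) (fun x x' h => hF x x' v h) ?_
        intro x x' h
        refine not_congr (hF (g • x) (g • x') (g • v) ?_)
        intro z hz
        rw [hτ, hτ]
        exact h _ (Finset.mem_image.2 ⟨z, hz, rfl⟩)
      have h0 : sl B1 v * sl B2ᶜ v ≤ sl (B1 ∆ A) v + sl (B2 ∆ A) v := by
        rw [← hind]
        refine (measure_mono ?_).trans (measure_union_le _ _)
        rintro x ⟨h1, h2⟩
        by_cases h : (x, v) ∈ A
        · exact Or.inr (Or.inr ⟨h, h2⟩)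
        · exact Or.inl (Or.inl ⟨h1, h⟩)
      have h1 : sl A v ≤ sl B1 v + sl (B1 ∆ A) v := by
        refine (measure_mono ?_).trans (measure_union_le _ _)
        intro x hx
        by_cases h : (x, v) ∈ B1
        · exact Or.inl h
        · exact Or.inr (Or.inr ⟨hx, h⟩)
      have h2 : sl Aᶜ v ≤ sl B2ᶜ v + sl (B2 ∆ A) v := by
        refine (measure_mono ?_).trans (measure_union_le _ _)
        intro x hx
        by_cases h : (x, v) ∈ B2
        · exact Or.inr (Or.inl ⟨h, hx⟩)
        · exact Or.inl h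
      have h3 : sl Aᶜ v ≤ 1 := prob_le_one
      have h4 : sl B1 v ≤ 1 := prob_le_one
      calc sl A v * sl Aᶜ v ≤ (sl B1 v + sl (B1 ∆ A) v) * sl Aᶜ v := by gcongr
        _ = sl B1 v * sl Aᶜ v + sl (B1 ∆ A) v * sl Aᶜ v := add_mul _ _ _
        _ ≤ sl B1 v * (sl B2ᶜ v + sl (B2 ∆ A) v) + sl (B1 ∆ A) v * 1 := by gcongr
        _ = sl B1 v * sl B2ᶜ v + sl B1 v * sl (B2 ∆ A) v + sl (B1 ∆ A) v := by ring
        _ ≤ (sl (B1 ∆ A) v + sl (B2 ∆ A) v) + 1 * sl (B2 ∆ A) v + sl (B1 ∆ A) v := by gcongr
        _ = 2 * sl (B1 ∆ A) v + 2 * sl (B2 ∆ A) v := by ring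
    calc ∫⁻ v, sl A v * sl Aᶜ v ∂ν
        ≤ ∫⁻ v, 2 * sl (B1 ∆ A) v + 2 * sl (B2 ∆ A) v ∂ν := lintegral_mono hpt
      _ = 2 * (β.prod ν) (B1 ∆ A) + 2 * (β.prod ν) (B2 ∆ A) := by
          rw [lintegral_add_left ((hsl _ (hB1.symmDiff hA)).const_mul 2),
            lintegral_const_mul _ (hsl _ (hB1.symmDiff hA)),
            lintegral_const_mul _ (hsl _ (hB2.symmDiff hA)), hint _ (hB1.symmDiff hA),
            hint _ (hB2.symmDiff hA)]
      _ ≤ 2 * ε + 2 * ε := by gcongr
      _ = 4 * ε := by ring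
  have h0 : ∫⁻ v, sl A v * sl Aᶜ v ∂ν = 0 := by
    refine le_antisymm (ENNReal.le_of_forall_pos_le_add fun ε hε _ => ?_) zero_le
    have := hle ((ε : ℝ≥0∞) / 4) (ENNReal.div_pos (by simpa using hε.ne') (by simp))
    rwa [ENNReal.mul_div_cancel (by norm_num) (by norm_num), ← zero_add (ε : ℝ≥0∞)] at this
  have h1 := (lintegral_eq_zero_iff ((hsl _ hA).mul (hsl _ hA.compl))).1 h0
  filter_upwards [h1] with v hv
  exact mul_eq_zero.1 hv

end Prod

/-- A generalised Bernoulli shift which moves every finite set of positions off itself is weakly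
mixing. -/
theorem wm_pi {G T B : Type} [Group G] [MeasurableSpace B] [MulAction G (T → B)]
    [MeasurableConstSMul G (T → B)] [DecidableEq T] (b : Measure B) [IsProbabilityMeasure b]
    [SMulInvariantMeasure G (T → B) (Measure.infinitePi fun _ : T => b)]
    (τ : G → T → T) (hτ : ∀ (g : G) (x : T → B) z, (g • x) z = x (τ g z))
    (hsep : ∀ F : Finset T, ∃ g, Disjoint F (F.image (τ g))) :
    WM G (T → B) (Measure.infinitePi fun _ : T => b) := by
  intro V _ ν _ _ _ _ hV A hA hinv
  have h1 := slices_trivial b τ hτ hsep ν hA hinv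
  set β := Measure.infinitePi (fun _ : T => b) with hβ
  let W : Set V := {v | β ((fun x => (x, v)) ⁻¹' A) = 0}
  have hW : MeasurableSet W :=
    (measurable_measure_prodMk_right (μ := β) hA) (measurableSet_singleton 0)
  have hWinv : ∀ (g : G) v, g • v ∈ W ↔ v ∈ W := by
    intro g v
    have e : (fun x : T → B => (x, v)) ⁻¹' A =
        (fun x : T → B => g • x) ⁻¹' ((fun x => (x, g • v)) ⁻¹' A) := by
      ext x
      exact (hinv g (x, v)).symm
    simp only [W, mem_ofPred_eq]
    rw [e, measure_preimage_smul]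
  rcases hV W hW hWinv with h | h
  · right
    rw [← prob_compl_eq_zero_iff hA, Measure.prod_apply_symm hA.compl,
      lintegral_eq_zero_iff (measurable_measure_prodMk_right hA.compl)]
    have h2 : ∀ᵐ v ∂ν, v ∉ W := measure_eq_zero_iff_ae_notMem.1 h
    filter_upwards [h1, h2] with v hv hv'
    exact hv.resolve_left hv'
  · left
    rw [Measure.prod_apply_symm hA, lintegral_eq_zero_iff (measurable_measure_prodMk_right hA)]
    have h2 : ∀ᵐ v ∂ν, v ∈ W := by
      rw [← prob_compl_eq_zero_iff hW] at h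
      exact h
    filter_upwards [h2] with v hv
    exact hv

/-- The Bernoulli shift restricted to an infinite subgroup is weakly mixing. -/
theorem wm_bern {G : Type} [Group G] [Countable G] (H : Subgroup G) [Infinite H] :
    WM H (Bern G) (bernMeasure G) := by
  classical
  let act : MulAction H (G × ℕ → Bool) := inferInstanceAs (MulAction H (Bern G))
  have hms : MeasurableConstSMul H (G × ℕ → Bool) :=
    ⟨fun h => measurable_const_smul (M := G) (α := Bern G) (h : G)⟩
  have hin : SMulInvariantMeasure H (G × ℕ → Bool) (Measure.infinitePi fun _ : G × ℕ => fair) :=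
    ⟨fun h s _ => measure_preimage_smul (G := G) (α := Bern G) (bernMeasure G) (h : G) s⟩
  refine wm_pi (G := H) (T := G × ℕ) fair (fun h z => ((h : G)⁻¹ * z.1, z.2))
    (fun _ _ _ => rfl) fun F => ?_
  have hH : (H : Set G).Infinite := infinite_coe_iff.1 (inferInstanceAs (Infinite H))
  obtain ⟨g, hgH, hg⟩ := hH.exists_notMem_finset ((F ×ˢ F).image fun p => p.1.1 * p.2.1⁻¹)
  refine ⟨⟨g, hgH⟩, ?_⟩
  rw [Finset.disjoint_left]
  intro w hw hw'
  obtain ⟨z, hz, e⟩ := Finset.mem_image.1 hw'
  apply hg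
  refine Finset.mem_image.2 ⟨(z, w), Finset.mem_product.2 ⟨hz, hw⟩, ?_⟩
  have e1 : g⁻¹ * z.1 = w.1 := congrArg Prod.fst e
  simp only
  rw [← e1]
  group

section Basic

variable {G X Y : Type} [Group G] [MulAction G X] [MulAction G Y] [MeasurableSpace X]
  [MeasurableSpace Y] {μ : Measure X} {ν : Measure Y}

/-- Ergodicity passes to an isomorphic copy on a conull part. -/
theorem erg_of_emb {j : X → Y} (hj : MeasurableEmbedding j)
    (hμ : MeasurePreserving j μ ν) (he : ∀ (g : G) (x : X), j (g • x) = g • j x)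
    (hY : Erg G Y ν) : Erg G X μ := by
  intro s hs hinv
  have hm : MeasurableSet (j '' s) := hj.measurableSet_image.2 hs
  have h1 : μ s = ν (j '' s) := by
    rw [← hμ.measure_preimage hm.nullMeasurableSet, Set.preimage_image_eq _ hj.injective]
  rw [h1]
  refine hY _ hm fun g y => ⟨?_, ?_⟩
  · rintro ⟨x, hx, e⟩
    refine ⟨g⁻¹ • x, (hinv g⁻¹ x).2 hx, ?_⟩
    rw [he, e, inv_smul_smul]
  · rintro ⟨x, hx, rfl⟩
    exact ⟨g • x, (hinv g x).2 hx, he g x⟩

theorem wm_of_emb [SFinite μ] {j : X → Y} (hj : MeasurableEmbedding j)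
    (hμ : MeasurePreserving j μ ν) (he : ∀ (g : G) (x : X), j (g • x) = g • j x)
    (hY : WM G Y ν) : WM G X μ := by
  intro W _ ρ _ _ _ _ hW
  refine erg_of_emb (j := Prod.map j id) (hj.prodMap MeasurableEmbedding.id)
    (hμ.prod (MeasurePreserving.id ρ)) ?_ (hY W ρ hW)
  intro g y
  exact Prod.ext (he g y.1) rfl

theorem WM.erg [SFinite μ] (h : WM G X μ) : Erg G X μ := by
  let _ : MulAction G Unit := MulAction.compHom Unit (1 : G →* Equiv.Perm Unit)
  have : MeasurableConstSMul G Unit := ⟨fun _ => Measurable.of_discrete⟩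
  have : SMulInvariantMeasure G Unit (Measure.dirac ()) := ⟨fun g s _ => by
    congr 1⟩
  have hU : Erg G Unit (Measure.dirac ()) := by
    intro s _ _
    by_cases hs : () ∈ s
    · right
      exact Measure.dirac_apply_of_mem hs
    · left
      rw [Measure.dirac_apply, indicator_of_notMem hs]
  exact erg_of_emb (j := fun x => (x, ())) (measurableEmbedding_prod_mk_right ())
    ⟨measurable_prodMk_right, (Measure.prod_dirac ()).symm⟩ (fun _ _ => rfl)
    (h Unit (Measure.dirac ()) hU)

theorem WM.prod [IsProbabilityMeasure μ] [IsProbabilityMeasure ν] [MeasurableConstSMul G Y]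
    [SMulInvariantMeasure G Y ν] (hX : WM G X μ) (hY : WM G Y ν) :
    WM G (X × Y) (μ.prod ν) := by
  intro W _ ρ _ _ _ _ hW
  have : MeasurableConstSMul G (Y × W) := M.UpAux.prod_meas
  have : SMulInvariantMeasure G (Y × W) (ν.prod ρ) := M.UpAux.prod_inv _ _
  exact erg_of_emb (j := MeasurableEquiv.prodAssoc) MeasurableEquiv.prodAssoc.measurableEmbedding
    (measurePreserving_prodAssoc μ ν ρ) (fun _ _ => rfl) (hX (Y × W) (ν.prod ρ) (hY W ρ hW))

/-- From the whole group seen as a subgroup to the group. -/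
theorem WM.of_top (h : WM (⊤ : Subgroup G) X μ) : WM G X μ := by
  intro W _ ρ _ _ _ _ hW s hs hinv
  have : MeasurableConstSMul (⊤ : Subgroup G) W := ⟨fun g => measurable_const_smul (g : G)⟩
  have : SMulInvariantMeasure (⊤ : Subgroup G) W ρ :=
    ⟨fun g t _ => measure_preimage_smul ρ (g : G) t⟩
  exact h W ρ (fun t ht hi => hW t ht fun g x => hi ⟨g, trivial⟩ x) s hs
    fun g x => hinv (g : G) x

end Basic

end Vale.Agent.N189
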