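import Vale.Agent.N189.Rot

/-!
# P189: the cost of a stabilizer, by compression to an atom
-/

set_option autoImplicit false

open MeasureTheory Set
open scoped ENNReal

namespace Vale.Agent.N189

open Vale.Agent.P189 Vale.Agent.P189.M Vale.Agent.P189.M.UpAux

/-- Compression of the product action to the fibre over an atom `v0`. -/
theorem cost_stabilizer_le {G X V : Type} [Group G] [Countable G]
    [MeasurableSpace X] [StandardBorelSpace X] (μ : Measure X) [IsProbabilityMeasure μ]
    [MulAction G X] [MeasurableConstSMul G X] [SMulInvariantMeasure G X μ]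
    [MeasurableSpace V] [StandardBorelSpace V] (ν : Measure V) [IsProbabilityMeasure ν]
    [MulAction G V] [MeasurableConstSMul G V] [SMulInvariantMeasure G V ν]
    (v0 : V) (hv0 : ν {v0} ≠ 0) (htrans : ∀ v, ∃ g : G, g • v = v0) :
    actionCost (MulAction.stabilizer G v0) X μ * ν {v0} + ν {v0}ᶜ ≤
      actionCost G (X × V) (μ.prod ν) := by
  have hmY : MeasurableConstSMul G (X × V) := prod_meas
  have hiY : SMulInvariantMeasure G (X × V) (μ.prod ν) := prod_inv _ _
  refine le_actionCost_of_forall _ fun D hD hgen => ?_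
  let E : Set (X × V) := univ ×ˢ {v0}
  have hE : MeasurableSet E := MeasurableSet.univ.prod (measurableSet_singleton v0)
  obtain ⟨D', hD', hmem, hconn, hcost⟩ := compress (μ.prod ν) D hD hgen E hE
    (Filter.Eventually.of_forall fun y => by
      obtain ⟨g, hg⟩ := htrans y.2
      exact ⟨g, trivial, hg⟩)
  have hEc : (μ.prod ν) Eᶜ = ν {v0}ᶜ := by
    have : Eᶜ = univ ×ˢ ({v0}ᶜ : Set V) := by
      ext y
      simp [E]
    rw [this, Measure.prod_prod, measure_univ, one_mul]
  rw [hEc] at hcost
  refine le_trans (add_le_add ?_ le_rfl) hcost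
  let D2 : MulAction.stabilizer G v0 → Set X := fun h => (fun x => (x, v0)) ⁻¹' D' h
  have hD2 : ∀ h, MeasurableSet (D2 h) := fun h => (hD' h).preimage measurable_prodMk_right
  have hproj : ∀ y y' : X × V, Conn D' y y' → Conn D2 y.1 y'.1 := by
    intro y y' h
    induction h with
    | rel y y' h =>
      obtain ⟨g, hg, rfl⟩ := h
      obtain ⟨h1, h2⟩ := hmem g y hg
      have e1 : y.2 = v0 := h1.2
      have e2 : g • y.2 = v0 := h2.2
      rw [e1] at e2
      have hy : y.1 ∈ D2 ⟨g, e2⟩ := by
        change (y.1, v0) ∈ D' g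
        rw [← e1]
        exact hg
      exact Conn.of_mem hy
    | refl y => exact Conn.refl _ _
    | symm y y' _ ih => exact ih.symm
    | trans y y' y'' _ _ ih1 ih2 => exact ih1.trans ih2
  have hgen2 : Gen μ D2 := by
    filter_upwards [Measure.ae_ae_of_ae_prod hconn] with x hx h
    have h0 : (x, v0) ∈ E → ∀ g : G, g • (x, v0) ∈ E → Conn D' (x, v0) (g • (x, v0)) := by
      by_contra hne
      exact hv0 (measure_mono_null (singleton_subset_iff.2 hne) hx)
    exact hproj _ _ (h0 ⟨trivial, rfl⟩ h ⟨trivial, h.2⟩)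
  have hms : MeasurableConstSMul (MulAction.stabilizer G v0) X :=
    ⟨fun h => measurable_const_smul (h : G)⟩
  have hin : SMulInvariantMeasure (MulAction.stabilizer G v0) X μ :=
    ⟨fun h s hs => measure_preimage_smul μ (h : G) s⟩
  calc actionCost (MulAction.stabilizer G v0) X μ * ν {v0}
      ≤ dcost μ D2 * ν {v0} := by
        gcongr
        exact actionCost_le_dcost μ D2 hD2 hgen2
    _ = ∑' h : MulAction.stabilizer G v0, (μ.prod ν) (D2 h ×ˢ {v0}) := by
        rw [dcost, ← ENNReal.tsum_mul_right]
        exact tsum_congr fun h => (Measure.prod_prod _ _).symm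
    _ ≤ ∑' h : MulAction.stabilizer G v0, (μ.prod ν) (D' h) := by
        refine ENNReal.tsum_le_tsum fun h => measure_mono ?_
        rintro ⟨x, v⟩ ⟨h1, h2⟩
        have e : v = v0 := h2
        rw [e]
        exact h1
    _ ≤ dcost (μ.prod ν) D' :=
        ENNReal.tsum_comp_le_tsum_of_injective Subtype.val_injective
          fun g => (μ.prod ν) (D' g)

end Vale.Agent.N189
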