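import Vale.Agent.N189.Rot

/-!
# P189: a generalised Bernoulli shift with small percolating sets
-/

set_option autoImplicit false

open MeasureTheory Set
open scoped ENNReal

namespace Vale.Agent.N189

open Vale.Agent.P189 Vale.Agent.P189.M

/-- The percolating set attached to a set of values `U`. -/
def seed {B : Type} (U : Set B) : Set (Fin 3 × ℤ → B) :=
  {x | x (0, 0) ∈ U} ∪ {x | ∀ n : ℕ, x (0, -(n : ℤ)) ∉ U}

theorem measurableSet_seed {B : Type} [MeasurableSpace B] {U : Set B} (hU : MeasurableSet U) :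
    MeasurableSet (seed U) := by
  refine (measurable_pi_apply _ hU).union ?_
  rw [ofPred_forall]
  exact MeasurableSet.iInter fun n =>
    (measurable_pi_apply (X := fun _ : Fin 3 × ℤ => B) (0, -(n : ℤ)) hU).compl

theorem measure_seed {B : Type} [MeasurableSpace B] (b : Measure B) [IsProbabilityMeasure b]
    {U : Set B} (hU : MeasurableSet U) (h0 : b U ≠ 0) :
    Measure.infinitePi (fun _ : Fin 3 × ℤ => b) (seed U) ≤ b U := by
  have h1 : Measure.infinitePi (fun _ : Fin 3 × ℤ => b) {x | x (0, 0) ∈ U} = b U :=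
    (measurePreserving_eval_infinitePi (fun _ : Fin 3 × ℤ => b) (0, 0)).measure_preimage
      hU.nullMeasurableSet
  have h2 : Measure.infinitePi (fun _ : Fin 3 × ℤ => b)
      {x | ∀ n : ℕ, x (0, -(n : ℤ)) ∉ U} = 0 := by
    have hlt : b Uᶜ < 1 := by
      rw [prob_compl_eq_one_sub hU]
      exact ENNReal.sub_lt_self ENNReal.one_ne_top one_ne_zero h0
    refine le_antisymm (ge_of_tendsto' (ENNReal.tendsto_pow_atTop_nhds_zero_of_lt_one hlt)
      fun N => ?_) zero_le
    let f : ℕ ↪ Fin 3 × ℤ := ⟨fun n => (0, -(n : ℤ)), fun m n h => by simpa using h⟩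
    have h3 := Measure.infinitePi_pi (fun _ : Fin 3 × ℤ => b) (s := (Finset.range N).map f)
      (t := fun _ => Uᶜ) fun _ _ => hU.compl
    rw [Finset.prod_const, Finset.card_map, Finset.card_range] at h3
    rw [← h3]
    refine measure_mono fun x hx z hz => ?_
    obtain ⟨n, -, rfl⟩ := Finset.mem_map.1 (Finset.mem_coe.1 hz)
    exact hx n
  refine (measure_union_le _ _).trans ?_
  rw [h1, h2, add_zero]

theorem word_apply (z : Fin 3 × ℤ) :
    sk 0 (sk 0 (sk (cP 1) (sk 0 (sk 0 (sk (cP 1) (sk (cP 1) (sk 0 (sk 0 z)))))))) =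
      (z.1, (![-1, -1, 2] : Fin 3 → ℤ) z.1 + z.2) := by
  obtain ⟨k, u⟩ := z
  fin_cases k
  · simp [sk, cP]
  · simp [sk, cP]
  · simp [sk, cP]
    ring

/-- The shift: trivial for the indices in `s`, weakly mixing, and percolating for the others. -/
theorem exists_shift {G ι B : Type} [Group G] {p q : ι → G} {t : G}
    (hlift : ∀ (K : Type) [Group K] (a b : ι → K), (∀ i, a i ^ 3 = 1) → (∀ i, b i ^ 3 = 1) →
      ∃ φ : G →* K, (∀ i, φ (p i) = a i) ∧ (∀ i, φ (q i) = b i) ∧ φ t = 1)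
    [MeasurableSpace B] (b : Measure B) [IsProbabilityMeasure b] (s : Set ι) {i0 : ι}
    (hi0 : i0 ∉ s) :
    ∃ (_ : MulAction G (Fin 3 × ℤ → B)), MeasurableConstSMul G (Fin 3 × ℤ → B) ∧
      SMulInvariantMeasure G (Fin 3 × ℤ → B) (Measure.infinitePi fun _ => b) ∧
      (∀ g ∈ sub p q t s, ∀ v : Fin 3 × ℤ → B, g • v = v) ∧
      WM G (Fin 3 × ℤ → B) (Measure.infinitePi fun _ => b) ∧
      ∀ i, i ∉ s → ∀ (U : Set B) (Q : Set (Fin 3 × ℤ → B)), seed U ⊆ Q →
        (∀ v ∈ Q, p i • v ∈ Q) → (∀ v, v ∈ Q → q i • v ∈ Q → q i • q i • v ∈ Q) → Q = univ := by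
  classical
  let kp : Equiv.Perm (Fin 3 × ℤ) := skPerm (cP_sum 1)
  let kq : Equiv.Perm (Fin 3 × ℤ) := skPerm c0_sum
  obtain ⟨φ, hφp, hφq, hφt⟩ := hlift (Equiv.Perm (Fin 3 × ℤ)) (fun i => if i ∈ s then 1 else kp)
    (fun i => if i ∈ s then 1 else kq)
    (fun i => by
      by_cases h : i ∈ s
      · simp [h]
      · simp only [h, if_false]; exact skPerm_cube _)
    (fun i => by
      by_cases h : i ∈ s
      · simp [h]
      · simp only [h, if_false]; exact skPerm_cube _)
  have hp : ∀ i, i ∉ s → ∀ z, φ (p i) z = sk (cP 1) z := fun i hi z => by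
    rw [hφp, if_neg hi]
    rfl
  have hq : ∀ i, i ∉ s → ∀ z, φ (q i) z = sk 0 z := fun i hi z => by
    rw [hφq, if_neg hi]
    rfl
  let act : MulAction G (Fin 3 × ℤ → B) :=
    { smul := fun g x z => x (φ g⁻¹ z)
      one_smul := fun x => by
        funext z
        change x (φ 1⁻¹ z) = x z
        simp
      mul_smul := fun g h x => by
        funext z
        change x (φ (g * h)⁻¹ z) = x (φ h⁻¹ (φ g⁻¹ z))
        simp }
  have hsm : ∀ (g : G) (x : Fin 3 × ℤ → B) z, (g • x) z = x (φ g⁻¹ z) := fun _ _ _ => rfl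
  have hms : MeasurableConstSMul G (Fin 3 × ℤ → B) :=
    ⟨fun g => measurable_pi_iff.2 fun z => measurable_pi_apply (φ g⁻¹ z)⟩
  have hin : SMulInvariantMeasure G (Fin 3 × ℤ → B) (Measure.infinitePi fun _ => b) := by
    refine ⟨fun g T hT => ?_⟩
    have h : (Measure.infinitePi fun _ : Fin 3 × ℤ => b).map (fun x => g • x) =
        Measure.infinitePi fun _ => b :=
      Measure.map_infinitePi_infinitePi_of_inj (P := fun _ : Fin 3 × ℤ => b) (φ g⁻¹).injective
    rw [← Measure.map_apply (measurable_const_smul g) hT, h]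
  refine ⟨act, hms, hin, ?_, ?_, ?_⟩
  · have hker : sub p q t s ≤ φ.ker := by
      unfold sub
      rw [Subgroup.closure_le]
      rintro g ((⟨i, hi, rfl⟩ | ⟨i, hi, rfl⟩) | hg)
      · change φ (p i) = 1
        rw [hφp, if_pos hi]
      · change φ (q i) = 1
        rw [hφq, if_pos hi]
      · rw [mem_singleton_iff.1 hg]
        exact hφt
    intro g hg v
    funext z
    rw [hsm, MonoidHom.mem_ker.1 (hker (inv_mem hg))]
    rfl
  · refine wm_pi b (fun g z => φ g⁻¹ z) hsm fun F => ?_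
    let w : G := q i0 * (q i0 * (p i0 * (q i0 * (q i0 * (p i0 * (p i0 * (q i0 * q i0)))))))
    have hw : ∀ z, φ w z = (z.1, (![-1, -1, 2] : Fin 3 → ℤ) z.1 + z.2) := by
      intro z
      simp only [w, map_mul, Equiv.Perm.mul_apply, hp i0 hi0, hq i0 hi0]
      exact word_apply z
    have hpow : ∀ (m : ℕ) z, φ (w ^ m) z = (z.1, m * (![-1, -1, 2] : Fin 3 → ℤ) z.1 + z.2) := by
      intro m
      induction m with
      | zero => intro z; simp
      | succ m ih =>
        intro z
        rw [pow_succ', map_mul, Equiv.Perm.mul_apply, ih, hw]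
        refine Prod.ext rfl ?_
        push_cast
        ring
    let N : ℕ := F.sup fun z => z.2.natAbs
    have hN : ∀ z ∈ F, z.2.natAbs ≤ N := fun z hz =>
      Finset.le_sup (f := fun z : Fin 3 × ℤ => z.2.natAbs) hz
    refine ⟨(w ^ (2 * N + 1))⁻¹, Finset.disjoint_left.2 fun y hy hy' => ?_⟩
    obtain ⟨⟨k, u⟩, hz, e⟩ := Finset.mem_image.1 hy'
    rw [inv_inv, hpow] at e
    have h1 := hN y hy
    have h2 := hN _ hz
    rw [← e] at h1
    fin_cases k <;> simp at h1 h2 <;> omega
  · intro i hi U Q hS h1 h2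
    refine eq_univ_of_forall fun x => ?_
    by_cases hx : ∀ n : ℕ, x (0, -(n : ℤ)) ∉ U
    · exact hS (Or.inr hx)
    simp only [not_forall, not_not] at hx
    obtain ⟨n, hn⟩ := hx
    let R : Set (Fin 3 × ℤ) := {z | ∀ g : G, φ g (0, -(n : ℤ)) = z → g • x ∈ Q}
    have hR0 : ((0 : Fin 3), n • (1 : ℤ) + -(n : ℤ)) ∈ R := by
      intro g hg
      refine hS (Or.inl ?_)
      have e : ((0 : Fin 3), n • (1 : ℤ) + -(n : ℤ)) = (0, 0) := by simp
      change (g • x) (0, 0) ∈ U
      rw [hsm, ← e, ← hg, ← Equiv.Perm.mul_apply, ← map_mul, inv_mul_cancel, map_one]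
      exact hn
    have back : ∀ (c g : G) (z : Fin 3 × ℤ), φ g (0, -(n : ℤ)) = φ c z →
        φ (c⁻¹ * g) (0, -(n : ℤ)) = z := by
      intro c g z h
      rw [map_mul, Equiv.Perm.mul_apply, h, ← Equiv.Perm.mul_apply, ← map_mul, inv_mul_cancel,
        map_one]
      rfl
    have hR := rot_key (1 : ℤ) (Q := R) (by
      intro z hz g hg
      rw [← hp i hi] at hg
      have := h1 _ (hz _ (back _ _ _ hg))
      rwa [mul_smul, smul_inv_smul] at this) (by
      intro z hz hz' g hg
      rw [← hq i hi] at hg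
      have e1 := back _ _ _ hg
      have m1 := hz' _ e1
      rw [← hq i hi] at e1
      have m2 := hz _ (back _ _ _ e1)
      have := h2 _ m2 (by rwa [mul_smul, smul_inv_smul])
      rwa [mul_smul, smul_inv_smul, mul_smul, smul_inv_smul] at this) n _ hR0
    have := hR 1 (by simp)
    rwa [one_smul] at this

end Vale.Agent.N189
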