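import Vale.Agent.N189.Defs
import Vale.Agent.N189.Model
import Vale.Agent.N189.Index
import Vale.Agent.N189.Shift
import Vale.Agent.P189W88.Main

/-!
# P189: weakly mixing actions of different costs, and subgroups of finite index
-/

set_option autoImplicit false

open MeasureTheory Set
open scoped ENNReal

namespace Vale.Agent.N189

open Vale.Agent.P189 Vale.Agent.P189.M Vale.Agent.P189.M.UpAux

section Transfer

variable {Γ X : Type} [Group Γ] [MeasurableSpace X] (μ : Measure X) [MulAction Γ X]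
  [MeasurableConstSMul Γ X] [SMulInvariantMeasure Γ X μ]

/-- The right action attached to a left action. -/
def toRight : P189W88.Action Γ μ where
  act x g := g⁻¹ • x
  act_one x := by simp
  act_mul x g h := by simp [mul_smul]
  preserving g := measurePreserving_smul g⁻¹ μ

theorem toRight_free (hf : EssentiallyFree Γ X μ) : (toRight (Γ := Γ) μ).Free :=
  fun g hg => hf g⁻¹ (inv_ne_one.2 hg)

theorem toRight_restrict_cost (H : Subgroup Γ) :
    P189W88.Cost μ (restrict (toRight (Γ := Γ) μ) H).rel = actionCost H X μ := by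
  refine P189W88.cost_eq fun x y => ⟨?_, ?_⟩
  · rintro ⟨g, hg⟩
    exact ⟨g⁻¹, hg.symm⟩
  · rintro ⟨g, hg⟩
    refine ⟨g⁻¹, ?_⟩
    change y = ((g⁻¹ : H) : Γ)⁻¹ • x
    rw [Subgroup.coe_inv, inv_inv]
    exact hg.symm

theorem toRight_cost : P189W88.Cost μ (toRight (Γ := Γ) μ).rel = actionCost Γ X μ := by
  refine P189W88.cost_eq fun x y => ⟨?_, ?_⟩
  · rintro ⟨g, hg⟩
    exact ⟨g⁻¹, hg.symm⟩
  · rintro ⟨g, hg⟩
    refine ⟨g⁻¹, ?_⟩
    change y = g⁻¹⁻¹ • x
    rw [inv_inv]
    exact hg.symm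

theorem toRight_wm [IsProbabilityMeasure μ] (he : WM Γ X μ) :
    IsWeaklyMixing (toRight (Γ := Γ) μ) := by
  intro s hs hinv
  refine he X μ he.erg s hs fun g y => ?_
  have := hinv g⁻¹ y.1 y.2
  change (g⁻¹⁻¹ • y.1, g⁻¹⁻¹ • y.2) ∈ s ↔ _ at this
  rwa [inv_inv] at this

theorem toRight_restrict_wm [IsProbabilityMeasure μ] (H : Subgroup Γ) (he : WM H X μ) :
    IsWeaklyMixing (restrict (toRight (Γ := Γ) μ) H) := by
  have : MeasurableConstSMul H X := ⟨fun h => measurable_const_smul (h : Γ)⟩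
  have : SMulInvariantMeasure H X μ := ⟨fun h s _ => measure_preimage_smul μ (h : Γ) s⟩
  exact toRight_wm μ he

theorem mem_weakMixingCosts [StandardBorelSpace X] [IsProbabilityMeasure μ]
    (hf : EssentiallyFree Γ X μ) (he : WM Γ X μ) : actionCost Γ X μ ∈ weakMixingCosts Γ :=
  ⟨X, inferInstance, inferInstance, μ, inferInstance, toRight μ, toRight_free μ hf,
    toRight_wm μ he, toRight_cost μ⟩

end Transfer

theorem ofReal_81 : ENNReal.ofReal (1 / 81) = (81 : ℝ≥0∞)⁻¹ := by
  rw [one_div, ENNReal.ofReal_inv_of_pos (by norm_num)]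
  norm_num

theorem circle_prob : IsProbabilityMeasure (volume : Measure UnitAddCircle) :=
  ⟨UnitAddCircle.measure_univ⟩

theorem wm_bern_top (G : Type) [Group G] [Countable G] [Infinite G] :
    WM G (Bern G) (bernMeasure G) := by
  have : Infinite (⊤ : Subgroup G) := Subgroup.topEquiv.toEquiv.infinite_iff.2 inferInstance
  exact (wm_bern ⊤).of_top

/-- Weakly mixing free actions with cost between `1 + |s| / 81` and `1 + |s|`. -/
theorem mixing_mid (ι : Type) [Countable ι] (s : Finset ι) {i0 : ι} (hi0 : i0 ∉ s) :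
    ∃ c ∈ weakMixingCosts (Gam ι), 1 + (s.card : ℝ≥0∞) / 81 ≤ c ∧ c ≤ 1 + (s.card : ℝ≥0∞) := by
  classical
  have := gam_countable ι
  have := gam_infinite ι
  have := circle_prob
  obtain ⟨act, hmV, hiV, htriv, hwm, hperc⟩ := exists_shift (G := Gam ι) (p := gP) (q := gQ)
    (t := gT) (fun K _ a b ha hb => gam_lift ι K a b ha hb) (volume : Measure UnitAddCircle)
    (s : Set ι) (i0 := i0) hi0
  obtain ⟨X, _, _, μ, _, _, hmX, hiX, hfree, hgap, hsmall, j, hj, hjμ, hje⟩ :=
    exists_model_emb (Gam ι) ι gP gQ gT (multiData ι)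
  set ν := Measure.infinitePi fun _ : Fin 3 × ℤ => (volume : Measure UnitAddCircle) with hν
  have hmY : MeasurableConstSMul (Gam ι) (X × (Fin 3 × ℤ → UnitAddCircle)) := prod_meas
  have hiY : SMulInvariantMeasure (Gam ι) (X × (Fin 3 × ℤ → UnitAddCircle)) (μ.prod ν) :=
    prod_inv _ _
  have hfreeX : EssentiallyFree (Gam ι) X μ := by
    intro g hg
    have : {x : X | g • x = x} = ∅ :=
      eq_empty_of_forall_notMem fun x hx => hg (hfree g x hx)
    rw [this, measure_empty]
  have hwmY : WM (Gam ι) (X × (Fin 3 × ℤ → UnitAddCircle)) (μ.prod ν) :=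
    (wm_of_emb hj hjμ hje (wm_bern_top (Gam ι))).prod hwm
  refine ⟨_, mem_weakMixingCosts (μ.prod ν) (prod_essentiallyFree μ ν hfreeX) hwmY, ?_, ?_⟩
  · rw [div_eq_mul_inv, ← ofReal_81]
    exact le_actionCost_of_forall _ fun D hD hgen =>
      mid_lower μ hfree (multiData ι) hgap hsmall ν s htriv D hD hgen
  · refine ENNReal.le_of_forall_pos_le_add fun ε hε _ => ?_
    obtain ⟨δ, hδ, hδs⟩ := ENNReal.exists_pos_sum_of_countable
      (ε := (ε : ℝ≥0∞)) (by simpa using hε.ne') ι
    let S : ι → Set (Fin 3 × ℤ → UnitAddCircle) := fun i =>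
      if i ∈ s then univ else seed (Metric.closedBall 0 ((δ i : ℝ) / 2))
    have hSm : ∀ i, MeasurableSet (S i) := by
      intro i
      by_cases h : i ∈ s
      · simp only [S, h, if_true]
        exact MeasurableSet.univ
      · simp only [S, h, if_false]
        exact measurableSet_seed measurableSet_closedBall
    have hSμ : ∀ i, ν (S i) ≤ (if i ∈ s then 1 else 0) + δ i := by
      intro i
      by_cases h : i ∈ s
      · simp only [S, h, if_true, measure_univ]
        exact le_self_add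
      · simp only [S, h, if_false, zero_add]
        have hr : (0 : ℝ) < (δ i : ℝ) / 2 := half_pos (hδ i)
        refine (measure_seed volume measurableSet_closedBall
          (Metric.measure_closedBall_pos volume _ hr).ne').trans ?_
        rw [AddCircle.volume_closedBall, ← ENNReal.ofReal_coe_nnreal]
        exact ENNReal.ofReal_le_ofReal ((min_le_right _ _).trans (le_of_eq (by ring)))
    have hcard : ∑' i : ι, (if i ∈ s then (1 : ℝ≥0∞) else 0) = s.card := by
      rw [tsum_eq_sum (s := s) (fun i hi => by rw [if_neg hi])]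
      rw [Finset.sum_congr rfl fun i hi => if_pos hi]
      simp
    refine (cost_le_of_perc (multiData ι) μ hfreeX ν S hSm ?_).trans ?_
    · intro i Q hS h1 h2
      by_cases h : i ∈ s
      · simp only [S, h, if_true] at hS
        exact univ_subset_iff.1 hS
      · simp only [S, h, if_false] at hS
        exact hperc i h _ Q hS h1 h2
    · calc 1 + ∑' i, ν (S i) ≤ 1 + ∑' i, ((if i ∈ s then (1 : ℝ≥0∞) else 0) + δ i) := by
            gcongr with i
            exact hSμ i
        _ = 1 + (s.card + ∑' i, (δ i : ℝ≥0∞)) := by rw [ENNReal.tsum_add, hcard]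
        _ ≤ 1 + (s.card + ε) := by gcongr
        _ = 1 + s.card + ε := by rw [add_assoc]

theorem bern_lower (ι : Type) [Countable ι] (s : Finset ι) :
    1 + (s.card : ℝ≥0∞) / 81 ≤ actionCost (Gam ι) (Bern (Gam ι)) (bernMeasure (Gam ι)) := by
  have := gam_countable ι
  rw [div_eq_mul_inv, ← ofReal_81]
  exact le_actionCost_of_forall (bernMeasure (Gam ι))
    fun D hD hgen => lowerSt (Gam ι) ι gP gQ gT (multiData ι) s D hD hgen

theorem top_mem : ⊤ ∈ weakMixingCosts (Gam ℕ) := by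
  have := gam_countable ℕ
  have := gam_infinite ℕ
  have h := mem_weakMixingCosts (bernMeasure (Gam ℕ)) (bern_free (Gam ℕ)) (wm_bern_top (Gam ℕ))
  have e : actionCost (Gam ℕ) (Bern (Gam ℕ)) (bernMeasure (Gam ℕ)) = ⊤ := by
    refine ENNReal.eq_top_of_forall_nnreal_le fun r => ?_
    obtain ⟨n, hn⟩ := exists_nat_ge r
    refine le_trans ?_ (bern_lower ℕ (Finset.range (81 * n)))
    rw [Finset.card_range]
    refine le_trans ?_ le_add_self
    rw [ENNReal.le_div_iff_mul_le (Or.inl (by simp)) (Or.inl (by simp))]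
    push_cast
    rw [mul_comm]
    gcongr
    exact_mod_cast hn
  rwa [e] at h

theorem mixing_step {ι : Type} [Countable ι] (j : ℕ) (s : Finset ι) (hs : s.card = 81 * j)
    {i0 : ι} (hi0 : i0 ∉ s) :
    ∃ c ∈ weakMixingCosts (Gam ι), c ∈ Icc (1 + j : ℝ≥0∞) (1 + 81 * j) := by
  obtain ⟨c, hc, h1, h2⟩ := mixing_mid ι s hi0
  rw [hs] at h1 h2
  push_cast at h1 h2
  refine ⟨c, hc, le_trans (le_of_eq ?_) h1, h2⟩
  rw [mul_comm, mul_div_assoc, ENNReal.div_self (by simp) (by simp), mul_one]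

theorem gam_fp (k : ℕ) : Group.IsFinitelyPresented (Gam (Fin k)) := by
  have hfin : Finite (rels (Fin k)) := (rels_finite _).to_subtype
  infer_instance

/-- Subgroups of finite index whose restricted actions have cost at most `2`. -/
theorem index_bound {X : Type} [MeasurableSpace X] [StandardBorelSpace X] (μ : Measure X)
    [IsProbabilityMeasure μ] [MulAction (Gam (Fin 1)) X] [MeasurableConstSMul (Gam (Fin 1)) X]
    [SMulInvariantMeasure (Gam (Fin 1)) X μ] (hfree : EssentiallyFree (Gam (Fin 1)) X μ)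
    (n : ℕ) [NeZero n] :
    ∃ H : Subgroup (Gam (Fin 1)), H.index = 3 * n ∧ actionCost H X μ ≤ 2 := by
  have := gam_countable (Fin 1)
  have := unif_prob (ZMod n)
  have : (unif (ZMod n)).IsAddLeftInvariant := by
    constructor
    intro c
    have hinv := unif_invariant (Equiv.Perm (ZMod n)) (ZMod n)
    ext s hs
    rw [Measure.map_apply Measurable.of_discrete hs]
    exact hinv.measure_preimage_smul (Equiv.addLeft c) hs
  have := rm_prob (unif (ZMod n))
  obtain ⟨act, hmV, hiV, hrot⟩ := exists_rot (multiData (Fin 1)) (unif (ZMod n)) (1 : ZMod n)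
  set ν := rm (unif (ZMod n)) with hν
  let v0 : Fin 3 × ZMod n := (0, 0)
  have hv0 : ({v0} : Set (Fin 3 × ZMod n)) = ({0} : Set (Fin 3)) ×ˢ ({0} : Set (ZMod n)) := by
    rw [singleton_prod_singleton]
  have hperc : ∀ i : Fin 1, ∀ Q : Set (Fin 3 × ZMod n), {v0} ⊆ Q →
      (∀ v ∈ Q, (gP i : Gam (Fin 1)) • v ∈ Q) →
      (∀ v, v ∈ Q → (gQ i : Gam (Fin 1)) • v ∈ Q →
        (gQ i : Gam (Fin 1)) • (gQ i : Gam (Fin 1)) • v ∈ Q) → Q = univ := by
    intro i Q hS h1 h2
    refine rot_perc (1 : ZMod n) (U := {0}) (fun u => ⟨(-u).val, ?_⟩) Q (hv0 ▸ hS)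
      (fun v hv => ?_) (fun v hv hv' => ?_)
    · simp
    · rw [← (hrot i v).1]
      exact h1 v hv
    · rw [← (hrot i v).2] at hv'
      rw [← (hrot i v).2, ← (hrot i _).2]
      exact h2 v hv hv'
  have horb : MulAction.orbit (Gam (Fin 1)) v0 = univ := by
    refine hperc 0 _ (singleton_subset_iff.2 (MulAction.mem_orbit_self v0)) ?_ ?_
    · rintro v ⟨g, rfl⟩
      exact ⟨gP 0 * g, mul_smul _ _ _⟩
    · rintro v ⟨g, rfl⟩ -
      exact ⟨gQ 0 * (gQ 0 * g), by simp only [mul_smul]⟩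
  have hw0 : ν {v0} ≠ 0 := by
    rw [hv0, hν, rm_zero_prod]
    refine mul_ne_zero (by simp) ?_
    simp [unif]
  refine ⟨MulAction.stabilizer (Gam (Fin 1)) v0, ?_, ?_⟩
  · rw [MulAction.index_stabilizer, horb, ncard_univ, Nat.card_eq_fintype_card,
      Fintype.card_prod, Fintype.card_fin, ZMod.card]
  · have h1 := cost_stabilizer_le (G := Gam (Fin 1)) μ ν v0 hw0 (fun v => by
      have hv : v ∈ MulAction.orbit (Gam (Fin 1)) v0 := horb ▸ mem_univ v
      obtain ⟨g, rfl⟩ := hv
      exact ⟨g⁻¹, inv_smul_smul g v0⟩)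
    have h2 := cost_le_of_perc (multiData (Fin 1)) μ hfree ν (fun _ => {v0})
      (fun _ => measurableSet_singleton v0) hperc
    have h3 : 1 + ∑' _ : Fin 1, ν {v0} = 2 * ν {v0} + ν {v0}ᶜ := by
      rw [tsum_fintype, Fin.sum_univ_one, ← prob_add_prob_compl (μ := ν)
        (measurableSet_singleton v0)]
      ring
    have h4 := (ENNReal.add_le_add_iff_right (measure_ne_top ν _)).1 (h1.trans (h2.trans h3.le))
    exact (ENNReal.mul_le_mul_iff_left hw0 (measure_ne_top ν _)).1 h4

theorem main :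
    ((¬ ∀ (Γ : Type) [Group Γ] [Countable Γ], P189W88.FixedPrice Γ) ∧
      ∃ (Γ : Type) (_ : Group Γ), Countable Γ ∧
        ∃ c ∈ P189W88.costs Γ, ∃ d ∈ P189W88.costs Γ, c ≠ d) ∧
    (∀ K : ℕ, ∃ (Γ : Type) (_ : Group Γ), Group.IsFinitelyPresented Γ ∧
      ∀ j : ℕ, j ≤ K → ∃ c ∈ weakMixingCosts Γ, c ∈ Icc (1 + j : ℝ≥0∞) (1 + 81 * j)) ∧
    (∃ (Γ : Type) (_ : Group Γ), Countable Γ ∧ ⊤ ∈ weakMixingCosts Γ ∧
      ∀ j : ℕ, ∃ c ∈ weakMixingCosts Γ, c ∈ Icc (1 + j : ℝ≥0∞) (1 + 81 * j)) ∧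
    ∃ (Γ : Type) (_ : Group Γ) (X : Type) (_ : MeasurableSpace X) (_ : StandardBorelSpace X)
      (μ : Measure X) (_ : IsProbabilityMeasure μ) (α : P189W88.Action Γ μ),
      Group.IsFinitelyPresented Γ ∧ α.Free ∧ 82 / 81 ≤ P189W88.Cost μ α.rel ∧
      ∀ n : ℕ, 1 ≤ n → ∃ H : Subgroup Γ, H.index = 3 * n ∧ IsWeaklyMixing (restrict α H) ∧
        P189W88.Cost μ (restrict α H).rel ≤ 2 := by
  refine ⟨⟨P189W88.main.1, ?_⟩, fun K => ?_, ?_, ?_⟩
  · obtain ⟨Γ, _, hc, h⟩ := P189W88.main.2.2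
    refine ⟨Γ, inferInstance, hc, 1, ?_, ⊤, ?_, ENNReal.one_ne_top⟩
    · rw [h]
      exact mem_Ici.2 le_rfl
    · rw [h]
      exact mem_Ici.2 le_top
  · refine ⟨Gam (Fin (81 * K + 1)), inferInstance, gam_fp _, fun j hj => ?_⟩
    have hlt : 81 * j < 81 * K + 1 := by omega
    exact mixing_step j (Finset.Iio ⟨81 * j, hlt⟩) (by simp) (i0 := ⟨81 * j, hlt⟩) (by simp)
  · refine ⟨Gam ℕ, inferInstance, gam_countable ℕ, top_mem, fun j => ?_⟩
    exact mixing_step j (Finset.range (81 * j)) (by simp) (i0 := 81 * j) (by simp)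
  · have := gam_countable (Fin 1)
    have := gam_infinite (Fin 1)
    refine ⟨Gam (Fin 1), inferInstance, Bern (Gam (Fin 1)), inferInstance, inferInstance,
      bernMeasure _, inferInstance, toRight _, gam_fp 1, toRight_free _ (bern_free _), ?_,
      fun n hn => ?_⟩
    · rw [toRight_cost]
      refine le_trans (le_of_eq ?_) (bern_lower (Fin 1) Finset.univ)
      rw [Finset.card_univ, Fintype.card_fin, Nat.cast_one,
        show (82 : ℝ≥0∞) = 81 + 1 by norm_num, ENNReal.add_div,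
        ENNReal.div_self (by simp) (by simp)]
    · have : NeZero n := ⟨by omega⟩
      obtain ⟨H, hH, hc⟩ := index_bound (bernMeasure (Gam (Fin 1))) (bern_free _) n
      refine ⟨H, hH, ?_, by rwa [toRight_restrict_cost]⟩
      have hfi : H.FiniteIndex := ⟨by omega⟩
      have hinf : Infinite H := not_finite_iff_infinite.1 fun hfin =>
        not_finite_iff_infinite.2 inferInstance
          ((Subgroup.finite_iff_finite_and_finiteIndex H).2 ⟨hfin, hfi⟩)
      exact toRight_restrict_wm _ H (wm_bern H)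

end Vale.Agent.N189
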