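import Vale.Agent.N189.Erg

/-!
# P189: rotation spaces and the upper bound for the cost
-/

set_option autoImplicit false

open MeasureTheory Set
open scoped ENNReal

namespace Vale.Agent.N189

open Vale.Agent.P189 Vale.Agent.P189.M Vale.Agent.P189.UpperAux Vale.Agent.P189.M.UpAux

/-- The upper bound for the cost of a product with a space having small percolating sets. -/
theorem cost_le_of_perc {G ι X V : Type} [Group G] [Countable G] [Countable ι]
    {p q : ι → G} {t : G} (hM : MultiData G ι p q t)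
    [MeasurableSpace X] [StandardBorelSpace X] (μ : Measure X) [IsProbabilityMeasure μ]
    [MulAction G X] [MeasurableConstSMul G X] [SMulInvariantMeasure G X μ]
    (hfree : EssentiallyFree G X μ)
    [MeasurableSpace V] (ν : Measure V) [IsProbabilityMeasure ν] [MulAction G V]
    [MeasurableConstSMul G V] [SMulInvariantMeasure G V ν]
    (S : ι → Set V) (hSm : ∀ i, MeasurableSet (S i))
    (hperc : ∀ i, ∀ Q : Set V, S i ⊆ Q → (∀ v ∈ Q, p i • v ∈ Q) →
      (∀ v, v ∈ Q → q i • v ∈ Q → q i • q i • v ∈ Q) → Q = univ) :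
    actionCost G (X × V) (μ.prod ν) ≤ 1 + ∑' i, ν (S i) := by
  have hinft : Infinite (Subgroup.zpowers t) := by
    refine Infinite.of_injective (fun n : ℕ => (⟨t ^ n, Subgroup.npow_mem_zpowers t n⟩ :
      Subgroup.zpowers t)) ?_
    intro m n h
    have h' : t ^ m = t ^ n := congrArg Subtype.val h
    rcases le_total m n with hmn | hmn
    · have : t ^ (n - m) = 1 := by
        rw [pow_sub t hmn, ← h', mul_inv_cancel]
      have := hM.tinf _ this
      omega
    · have : t ^ (m - n) = 1 := by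
        rw [pow_sub t hmn, ← h', mul_inv_cancel]
      have := hM.tinf _ this
      omega
  have hmY : MeasurableConstSMul G (X × V) := prod_meas
  have hiY : SMulInvariantMeasure G (X × V) (μ.prod ν) := prod_inv _ _
  refine ENNReal.le_of_forall_pos_le_add fun ε hε _ => ?_
  have hε2 : (ε : ℝ≥0∞) / 2 ≠ 0 := by
    refine ENNReal.div_ne_zero.2 ⟨by simpa using hε.ne', by simp⟩
  obtain ⟨δ, hδ, hδs⟩ := ENNReal.exists_pos_sum_of_countable hε2 ι
  have hsec : ∀ i, ∃ E : Set X, MeasurableSet E ∧ μ E ≤ δ i ∧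
      ∀ x, ∃ g ∈ Subgroup.zpowers t, g • x ∈ E := by
    intro i
    obtain ⟨E, hE, hμE, hEc⟩ := exists_small_section (Γ := Subgroup.zpowers t) μ
      (hfree.subgroup _) (ε := (δ i : ℝ≥0∞)) (by simpa using hδ i)
    exact ⟨E, hE, hμE, fun x => by
      obtain ⟨g, hg⟩ := hEc x
      exact ⟨g, g.2, hg⟩⟩
  choose E hEm hEμ hEc using hsec
  have hmeas : ∀ g, MeasurableSet (mD p q t E S g) := fun g =>
    (measurableSet_single t MeasurableSet.univ g).union
      (MeasurableSet.iUnion fun i => measurableSet_cop _ _ (hEm i) (hSm i) g)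
  have hgen : Gen (μ.prod ν) (mD p q t E S) :=
    Filter.Eventually.of_forall fun y g =>
      mD_gen p q t hM.p3 hM.q3 hM.tp hM.tr hM.gen E S hEc hperc y g
  calc actionCost G (X × V) (μ.prod ν)
      ≤ dcost (μ.prod ν) (mD p q t E S) := actionCost_le_dcost _ _ hmeas hgen
    _ ≤ 1 + ∑' i, ((δ i : ℝ≥0∞) + (δ i + ν (S i))) := by
        refine (dcost_union_le _ (single t univ) _).trans ?_
        rw [dcost_single, measure_univ]
        refine add_le_add le_rfl ?_
        refine (dcost_iU_le (ι := ι) _ (fun (i : ι) => cop (p i) (q i) (E i) (S i))).trans ?_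
        refine ENNReal.tsum_le_tsum fun i => ?_
        refine (dcost_cop _ _ _ _ _ _).trans ?_
        exact add_le_add (hEμ i) (add_le_add (hEμ i) le_rfl)
    _ = 1 + (∑' i : ι, ν (S i) + 2 * ∑' i, (δ i : ℝ≥0∞)) := by
        rw [← ENNReal.tsum_mul_left, ← ENNReal.tsum_add]
        congr 2
        funext i
        ring
    _ ≤ 1 + (∑' i : ι, ν (S i) + 2 * ((ε : ℝ≥0∞) / 2)) := by gcongr
    _ = 1 + ∑' i : ι, ν (S i) + ε := by
        rw [ENNReal.mul_div_cancel (by norm_num) (by norm_num), add_assoc]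

/-- The group of measure-preserving permutations. -/
def mpGroup {V : Type} [MeasurableSpace V] (m : Measure V) : Subgroup (Equiv.Perm V) where
  carrier := {e | MeasurePreserving e m m ∧ MeasurePreserving e.symm m m}
  one_mem' := ⟨MeasurePreserving.id m, MeasurePreserving.id m⟩
  mul_mem' := fun ha hb => ⟨ha.1.comp hb.1, hb.2.comp ha.2⟩
  inv_mem' := fun ha => ⟨ha.2, ha.1⟩

section Rot

variable {A : Type} [AddCommGroup A]

/-- A skew rotation on three copies of `A`. -/
def sk (c : Fin 3 → A) (y : Fin 3 × A) : Fin 3 × A := (y.1 + 1, c y.1 + y.2)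

theorem sk_cube {c : Fin 3 → A} (h : c 0 + c 1 + c 2 = 0) (y : Fin 3 × A) :
    sk c (sk c (sk c y)) = y := by
  obtain ⟨k, u⟩ := y
  have h3 : ∀ k : Fin 3, k + 1 + 1 + 1 = k := by decide
  have hs : ∀ k : Fin 3, c (k + 1 + 1) + (c (k + 1) + c k) = 0 := by
    intro k
    rw [← h]
    fin_cases k
    · change c 2 + (c 1 + c 0) = _
      abel
    · change c 0 + (c 2 + c 1) = _
      abel
    · change c 1 + (c 0 + c 2) = _
      abel
  refine Prod.ext (h3 k) ?_
  change c (k + 1 + 1) + (c (k + 1) + (c k + u)) = u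
  rw [← add_assoc (c (k + 1)), ← add_assoc, hs, zero_add]

/-- The skew rotation as a permutation. -/
def skPerm {c : Fin 3 → A} (h : c 0 + c 1 + c 2 = 0) : Equiv.Perm (Fin 3 × A) where
  toFun := sk c
  invFun y := sk c (sk c y)
  left_inv := sk_cube h
  right_inv := sk_cube h

theorem skPerm_cube {c : Fin 3 → A} (h : c 0 + c 1 + c 2 = 0) : skPerm h ^ 3 = 1 := by
  ext1 y
  exact sk_cube h y

/-- The increments of the first rotation. -/
def cP (a : A) : Fin 3 → A := ![-a, 0, a]

theorem cP_sum (a : A) : cP a 0 + cP a 1 + cP a 2 = 0 := by simp [cP]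

theorem c0_sum : (0 : Fin 3 → A) 0 + (0 : Fin 3 → A) 1 + (0 : Fin 3 → A) 2 = 0 := by simp

theorem rot_one (a : A) {Q : Set (Fin 3 × A)} (hp : ∀ v ∈ Q, sk (cP a) v ∈ Q) (u : A)
    (h : ((0 : Fin 3), a + u) ∈ Q) : ((1 : Fin 3), u) ∈ Q := by
  simpa [sk, cP] using hp _ h

theorem rot_two (a : A) {Q : Set (Fin 3 × A)} (hp : ∀ v ∈ Q, sk (cP a) v ∈ Q) (u : A)
    (h : ((1 : Fin 3), u) ∈ Q) : ((2 : Fin 3), u) ∈ Q := by
  simpa [sk, cP] using hp _ h

/-- Percolation along the rotation. -/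
theorem rot_key (a : A) {Q : Set (Fin 3 × A)} (hp : ∀ v ∈ Q, sk (cP a) v ∈ Q)
    (hq : ∀ v, v ∈ Q → sk 0 v ∈ Q → sk 0 (sk 0 v) ∈ Q) (m : ℕ) (u : A)
    (h : ((0 : Fin 3), m • a + u) ∈ Q) : ((0 : Fin 3), u) ∈ Q := by
  induction m generalizing u with
  | zero => simpa using h
  | succ m ih =>
    rw [succ_nsmul, add_assoc] at h
    have h1 := rot_one a hp u (ih _ h)
    have := hq _ h1 (by simpa [sk] using rot_two a hp u h1)
    simpa [sk] using this

/-- Percolation from a set met by all forward orbits of the rotation. -/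
theorem rot_perc (a : A) {U : Set A} (hU : ∀ u, ∃ m : ℕ, m • a + u ∈ U) (Q : Set (Fin 3 × A))
    (hS : ({0} : Set (Fin 3)) ×ˢ U ⊆ Q) (hp : ∀ v ∈ Q, sk (cP a) v ∈ Q)
    (hq : ∀ v, v ∈ Q → sk 0 v ∈ Q → sk 0 (sk 0 v) ∈ Q) : Q = univ := by
  have hall : ∀ u, ((0 : Fin 3), u) ∈ Q := by
    intro u
    obtain ⟨m, hm⟩ := hU u
    exact rot_key a hp hq m u (hS ⟨rfl, hm⟩)
  ext ⟨k, u⟩
  simp only [mem_univ, iff_true]
  fin_cases k
  · exact hall u
  · exact rot_one a hp u (hall _)
  · exact rot_two a hp u (rot_one a hp u (hall _))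

variable [MeasurableSpace A] [MeasurableAdd A]

/-- The measure on three copies of `A`. -/
noncomputable def rm (ν : Measure A) : Measure (Fin 3 × A) := (unif (Fin 3)).prod ν

omit [AddCommGroup A] [MeasurableAdd A] in
theorem rm_prob (ν : Measure A) [IsProbabilityMeasure ν] : IsProbabilityMeasure (rm ν) := by
  have := unif_prob (Fin 3)
  unfold rm
  infer_instance

theorem unif_three : unif (Fin 3) {0} = 3⁻¹ := by
  simp [unif]

omit [AddCommGroup A] [MeasurableAdd A] in
theorem rm_zero_prod (ν : Measure A) [IsProbabilityMeasure ν] (U : Set A) :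
    rm ν (({0} : Set (Fin 3)) ×ˢ U) = 3⁻¹ * ν U := by
  rw [rm, Measure.prod_prod, unif_three]

theorem sk_mp (ν : Measure A) [IsProbabilityMeasure ν] [ν.IsAddLeftInvariant] (c : Fin 3 → A) :
    MeasurePreserving (sk c) (rm ν) (rm ν) := by
  have := unif_prob (Fin 3)
  have h1 : MeasurePreserving (fun k : Fin 3 => k + 1) (unif (Fin 3)) (unif (Fin 3)) := by
    have hinv := unif_invariant (Equiv.Perm (Fin 3)) (Fin 3)
    refine ⟨Measurable.of_discrete, ?_⟩
    ext s hs
    rw [Measure.map_apply Measurable.of_discrete hs]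
    exact hinv.measure_preimage_smul (Equiv.addRight (1 : Fin 3)) hs
  refine MeasurePreserving.skew_product (g := fun k u => c k + u) h1 ?_ ?_
  · exact measurable_from_prod_countable_right fun k => measurable_const_add (c k)
  · exact Filter.Eventually.of_forall fun k => map_add_left_eq_self ν (c k)

theorem skPerm_mem (ν : Measure A) [IsProbabilityMeasure ν] [ν.IsAddLeftInvariant]
    {c : Fin 3 → A} (h : c 0 + c 1 + c 2 = 0) : skPerm h ∈ mpGroup (rm ν) :=
  ⟨sk_mp ν c, (sk_mp ν c).comp (sk_mp ν c)⟩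

/-- The action on three copies of `A` by the two skew rotations. -/
theorem exists_rot {G ι : Type} [Group G] {p q : ι → G} {t : G} (hM : MultiData G ι p q t)
    (ν : Measure A) [IsProbabilityMeasure ν] [ν.IsAddLeftInvariant] (a : A) :
    ∃ (_ : MulAction G (Fin 3 × A)), MeasurableConstSMul G (Fin 3 × A) ∧
      SMulInvariantMeasure G (Fin 3 × A) (rm ν) ∧
      ∀ i, ∀ v : Fin 3 × A, p i • v = sk (cP a) v ∧ q i • v = sk 0 v := by
  let kp : mpGroup (rm ν) := ⟨skPerm (cP_sum a), skPerm_mem ν _⟩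
  let kq : mpGroup (rm ν) := ⟨skPerm c0_sum, skPerm_mem ν _⟩
  have hkp : kp ^ 3 = 1 := Subtype.ext (skPerm_cube (cP_sum a))
  have hkq : kq ^ 3 = 1 := Subtype.ext (skPerm_cube c0_sum)
  obtain ⟨φ, hφp, hφq, -⟩ := hM.lift (mpGroup (rm ν)) kp kq hkp hkq
  let act : MulAction G (Fin 3 × A) :=
    MulAction.compHom (Fin 3 × A) ((mpGroup (rm ν)).subtype.comp φ)
  have hsm : ∀ (g : G) (v : Fin 3 × A), g • v = (φ g).1 v := fun g v => rfl
  refine ⟨act, ⟨fun g => (φ g).2.1.measurable⟩,
    ⟨fun g T hT => (φ g).2.1.measure_preimage hT.nullMeasurableSet⟩, fun i v => ?_⟩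
  rw [hsm, hsm, hφp, hφq]
  exact ⟨rfl, rfl⟩

end Rot

end Vale.Agent.N189
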